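import Vale.Agent.P165.H199.Val

/-!
Geometry pieces of block BA1: G1 (small clusters are in balls), G2 (thickening), G3 (the triangle
diagram has a small entry in every large ball).
-/

open Finset

set_option linter.unusedSectionVars false

namespace Vale.Agent.P165.H633

open Vale.Agent.P151 (Ex Cn cl csz edgesIn EV con tau gr)
open Vale.Agent.P165.LF Vale.Agent.P165.H199

variable {V : Type} [DecidableEq V]

/-- (G1) a cluster with at most `L` vertices lies in the ball of radius `L`. -/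
theorem g1 (G : SimpleGraph V) [G.LocallyFinite] : G1 G := by
  intro x F S L hS hL y hy
  rw [Vale.Agent.P151.mem_cl] at hy
  obtain ⟨p, hp⟩ := (hy.symm : (gr S).Reachable y x).exists_isPath
  have hle : gr S ≤ G := by
    intro a b hab
    rw [Vale.Agent.P151.gr_adj] at hab
    exact (Vale.Agent.P151.mk_mem_edgesIn.1 (hS hab.1)).1
  have h2 : p.support.toFinset ⊆ cl S x := by
    intro z hz
    rw [List.mem_toFinset] at hz
    rw [Vale.Agent.P151.mem_cl]
    exact (p.dropUntil z hz).reachable.symm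
  have h3 := card_le_card h2
  rw [List.toFinset_card_of_nodup hp.support_nodup, SimpleGraph.Walk.length_support] at h3
  refine mem_ballF_of_walk G x L y (p.mapLe hle) ?_
  have h4 : (p.mapLe hle).length = p.length := SimpleGraph.Walk.length_map _ _
  have h5 : (cl S x).card = csz S x := rfl
  omega

theorem vertexCheeger_nonneg (G : SimpleGraph V) : 0 ≤ vertexCheeger G := by
  unfold vertexCheeger
  exact Real.iInf_nonneg fun A => by positivity

/-- (G2) thickening a finite set. -/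
theorem g2 (G : SimpleGraph V) [G.LocallyFinite] : G2 G := by
  intro K R
  have hh := vertexCheeger_nonneg G
  induction R with
  | zero =>
    have h1 : K.biUnion (fun y => ballF G y 0) = K := by
      ext y
      simp only [mem_biUnion, ballF_zero, mem_singleton]
      constructor
      · rintro ⟨z, hz, rfl⟩; exact hz
      · intro hy; exact ⟨y, hy, rfl⟩
    rw [h1, pow_zero, one_mul]
  | succ R ih =>
    set T := K.biUnion (fun y => ballF G y R) with hT
    set B : Finset V := (T.biUnion (fun x => G.neighborFinset x)) \ T with hB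
    have h1 : vertexCheeger G * T.card ≤ B.card := by
      have := vertexCheeger_mul_le G T
      rwa [vertexBoundary_eq, Set.ncard_coe_finset] at this
    have h2 : T ∪ B ⊆ K.biUnion (fun y => ballF G y (R + 1)) := by
      intro y hy
      rcases mem_union.1 hy with hy | hy
      · obtain ⟨k, hk, hky⟩ := mem_biUnion.1 hy
        exact mem_biUnion.2 ⟨k, hk, (mem_ballF_succ G k R y).2 (Or.inl hky)⟩
      · obtain ⟨z, hz, hzy⟩ := mem_biUnion.1 (mem_sdiff.1 hy).1
        obtain ⟨k, hk, hkz⟩ := mem_biUnion.1 hz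
        rw [SimpleGraph.mem_neighborFinset] at hzy
        exact mem_biUnion.2 ⟨k, hk, (mem_ballF_succ G k R y).2 (Or.inr ⟨z, hkz, hzy⟩)⟩
    have h3 := card_le_card h2
    have hd : Disjoint T B := disjoint_sdiff
    rw [card_union_of_disjoint hd] at h3
    have h4 : (T.card : ℝ) + B.card ≤ ((K.biUnion (fun y => ballF G y (R + 1))).card : ℝ) := by
      exact_mod_cast h3
    have h5 : (1 + vertexCheeger G) ^ (R + 1) * (K.card : ℝ) =
        (1 + vertexCheeger G) * ((1 + vertexCheeger G) ^ R * (K.card : ℝ)) := by ring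
    rw [h5]
    refine (mul_le_mul_of_nonneg_left ih (by linarith)).trans (le_trans ?_ h4)
    linarith only [h1]

/-- the `ℓ²` bound for the operator -/
theorem op_bound {G : SimpleGraph V} {q N : ℝ} (h0 : 0 ≤ q) (h1 : q ≤ 1) (h : L2B G q N)
    (F : Finset V) (ψ : V → ℝ) (hψ : ∀ x, 0 ≤ ψ x) :
    ∑ x ∈ F, (∑ y ∈ F, Ex q (edgesIn G F) (con x y) * ψ y) ^ 2 ≤ N ^ 2 * ∑ y ∈ F, ψ y ^ 2 := by
  set φ : V → ℝ := fun x => ∑ y ∈ F, Ex q (edgesIn G F) (con x y) * ψ y with hφ
  have hφ0 : ∀ x, 0 ≤ φ x := fun x => sum_nonneg fun y _ =>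
    mul_nonneg (mg_Ex_con_nonneg h0 h1 _ x y) (hψ y)
  have hL := h.2 F φ ψ hφ0 hψ
  have e1 : ∑ x ∈ F, ∑ y ∈ F, φ x * ψ y * Ex q (edgesIn G F) (con x y) =
      ∑ x ∈ F, φ x ^ 2 := by
    refine sum_congr rfl fun x _ => ?_
    have : φ x ^ 2 = φ x * ∑ y ∈ F, Ex q (edgesIn G F) (con x y) * ψ y := by rw [sq]
    rw [this, mul_sum]
    exact sum_congr rfl fun y _ => by ring
  rw [e1] at hL
  set A := ∑ x ∈ F, φ x ^ 2 with hA
  set B := ∑ y ∈ F, ψ y ^ 2 with hB
  have hA0 : 0 ≤ A := sum_nonneg fun _ _ => sq_nonneg _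
  have hB0 : 0 ≤ B := sum_nonneg fun _ _ => sq_nonneg _
  rcases hA0.eq_or_lt with h2 | h2
  · rw [← h2]; positivity
  · have h3 : A * A ≤ A * (N ^ 2 * B) := by nlinarith only [hL]
    exact le_of_mul_le_mul_left h3 h2

/-- (G3) the triangle diagram has a small entry in every large ball (finite volume `F`). -/
theorem g3 [Infinite V] (G : SimpleGraph V) [G.LocallyFinite] (hG : G.Connected) : G3 G := by
  intro N ε hε
  refine ⟨⌈N ^ 6 / ε ^ 2⌉₊, fun q h0 h1 hL F w hF => ?_⟩
  set r := ⌈N ^ 6 / ε ^ 2⌉₊ with hr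
  set τ : V → V → ℝ := fun x y => Ex q (edgesIn G F) (con x y) with hτ
  have hτ0 : ∀ x y, 0 ≤ τ x y := fun x y => mg_Ex_con_nonneg h0 h1 _ x y
  have hwF : w ∈ F := hF (mem_ballF_self G w r)
  set v : V → ℝ := fun b => τ b w with hv
  set u : V → ℝ := fun a => ∑ b ∈ F, τ a b * v b with hu
  set t : V → ℝ := fun x => ∑ a ∈ F, τ x a * u a with ht
  have hv0 : ∀ b, 0 ≤ v b := fun b => hτ0 b w
  have hu0 : ∀ a, 0 ≤ u a := fun a => sum_nonneg fun b _ => mul_nonneg (hτ0 a b) (hv0 b)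
  have hv2 : ∑ b ∈ F, v b ^ 2 ≤ N ^ 2 := by
    have := op_bound h0 h1 hL F (fun y => if y = w then 1 else 0)
      (fun y => by split_ifs <;> norm_num)
    have e1 : ∀ x, ∑ y ∈ F, Ex q (edgesIn G F) (con x y) * (if y = w then (1 : ℝ) else 0) =
        v x := by
      intro x
      rw [sum_eq_single w]
      · rw [if_pos rfl, mul_one]
      · intro b _ hb
        rw [if_neg hb, mul_zero]
      · intro h; exact absurd hwF h
    have e2 : ∑ y ∈ F, (if y = w then (1 : ℝ) else 0) ^ 2 = 1 := by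
      rw [sum_eq_single w]
      · rw [if_pos rfl, one_pow]
      · intro b _ hb
        rw [if_neg hb]; norm_num
      · intro h; exact absurd hwF h
    rw [e2, mul_one] at this
    calc ∑ b ∈ F, v b ^ 2 = ∑ x ∈ F, (∑ y ∈ F, Ex q (edgesIn G F) (con x y) *
          (if y = w then (1 : ℝ) else 0)) ^ 2 := sum_congr rfl fun x _ => by rw [e1]
      _ ≤ N ^ 2 := this
  have hu2 : ∑ a ∈ F, u a ^ 2 ≤ N ^ 4 := by
    refine (op_bound h0 h1 hL F v hv0).trans ?_
    calc N ^ 2 * ∑ b ∈ F, v b ^ 2 ≤ N ^ 2 * N ^ 2 :=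
          mul_le_mul_of_nonneg_left hv2 (sq_nonneg _)
      _ = N ^ 4 := by ring
  have ht2 : ∑ x ∈ F, t x ^ 2 ≤ N ^ 6 := by
    refine (op_bound h0 h1 hL F u hu0).trans ?_
    calc N ^ 2 * ∑ a ∈ F, u a ^ 2 ≤ N ^ 2 * N ^ 4 :=
          mul_le_mul_of_nonneg_left hu2 (sq_nonneg _)
      _ = N ^ 6 := by ring
  by_contra hcon
  push Not at hcon
  have h2 : ∀ x ∈ ballF G w r, ε ^ 2 ≤ t x ^ 2 := by
    intro x hx
    have h3 := hcon x hx
    have h4 : ∑ a ∈ F, ∑ b ∈ F, Ex q (edgesIn G F) (con x a) * Ex q (edgesIn G F) (con a b) *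
        Ex q (edgesIn G F) (con b w) = t x := by
      refine sum_congr rfl fun a _ => ?_
      show _ = τ x a * ∑ b ∈ F, τ a b * v b
      rw [mul_sum]
      exact sum_congr rfl fun b _ => by simp only [hτ, hv]; ring
    rw [h4] at h3
    exact pow_le_pow_left₀ hε.le h3.le 2
  have h3 : ((ballF G w r).card : ℝ) * ε ^ 2 ≤ N ^ 6 := by
    calc ((ballF G w r).card : ℝ) * ε ^ 2 = ∑ _x ∈ ballF G w r, ε ^ 2 := by
          rw [sum_const, nsmul_eq_mul]
      _ ≤ ∑ x ∈ ballF G w r, t x ^ 2 := sum_le_sum h2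
      _ ≤ ∑ x ∈ F, t x ^ 2 := sum_le_sum_of_subset_of_nonneg hF fun _ _ _ => sq_nonneg _
      _ ≤ N ^ 6 := ht2
  have h4 : (r : ℝ) + 1 ≤ (ballF G w r).card := by exact_mod_cast card_ballF_ge G hG w r
  have h5 : N ^ 6 / ε ^ 2 ≤ r := Nat.le_ceil _
  have hε2 : 0 < ε ^ 2 := by positivity
  rw [div_le_iff₀ hε2] at h5
  nlinarith only [h3, h4, h5, hε2]

end Vale.Agent.P165.H633
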