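import Vale.Agent.P165.H199.Mom

/-!
(E1) binary splitting of a connected event with at least two marked points.
-/

open Finset

set_option linter.unusedSectionVars false

namespace Vale.Agent.P165.H633

open Vale.Agent.P151 (Ex Cn cl csz edgesIn EV con tau gr)
open Vale.Agent.P165.LF Vale.Agent.P165.H199

variable {V : Type} [DecidableEq V]

theorem e1 : E1 V := by
  classical
  intro ι _ S x z I hI hz
  obtain ⟨i0, hi0⟩ : I.Nonempty := card_pos.1 (by omega)
  obtain ⟨w0⟩ := hz i0 hi0
  obtain ⟨w, hw⟩ : ∃ w : (gr S).Walk x (z i0), w.IsPath :=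
    ⟨(w0.toPath : (gr S).Walk x (z i0)), w0.toPath.2⟩
  set P : Finset (Sym2 V) := w.edges.toFinset with hP
  have hPS : P ⊆ S := by
    intro e he
    rw [hP, List.mem_toFinset] at he
    have := SimpleGraph.Walk.edges_subset_edgeSet w he
    induction e with
    | _ a b => exact (Vale.Agent.P151.gr_adj.1 this).1
  have hatt : ∀ i ∈ I, ∃ a, a ∈ w.support ∧ Cn (S \ P) a (z i) := by
    intro i hi
    have : z i ∈ {v | ∃ a, a ∈ w.support ∧ Cn (S \ P) a v} := by
      refine Vale.Agent.P151.Cn_closed (S := S) ?_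
        ⟨x, w.start_mem_support, Vale.Agent.P151.Cn.refl _ _⟩ (hz i hi)
      rintro a ⟨u, hu, hua⟩ b hab
      by_cases h : s(a, b) ∈ P
      · refine ⟨b, ?_, Vale.Agent.P151.Cn.refl _ _⟩
        rw [hP, List.mem_toFinset] at h
        exact SimpleGraph.Walk.snd_mem_support_of_mem_edges w h
      · exact ⟨u, hu, hua.trans (Vale.Agent.P151.Cn_of_mem (mem_sdiff.2 ⟨hab, h⟩))⟩
    exact this
  have : Nonempty V := ⟨x⟩
  choose! a ha hac using hatt
  have hne : (I.erase i0).Nonempty := by
    rw [← card_pos, card_erase_of_mem hi0]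
    omega
  obtain ⟨i1, hi1, hmin⟩ := exists_min_image (I.erase i0)
    (fun i => if h : a i ∈ w.support then (w.takeUntil (a i) h).length else 0) hne
  have hi1I : i1 ∈ I := mem_of_mem_erase hi1
  set u := a i1 with hu
  have hus : u ∈ w.support := ha i1 hi1I
  set P1 : Finset (Sym2 V) := (w.takeUntil u hus).edges.toFinset with hP1
  set P2 : Finset (Sym2 V) := (w.dropUntil u hus).edges.toFinset with hP2
  have hP1P : P1 ⊆ P := by
    intro e he
    rw [hP1, List.mem_toFinset] at he
    rw [hP, List.mem_toFinset]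
    exact SimpleGraph.Walk.edges_takeUntil_subset_edges w hus he
  have hP2P : P2 ⊆ P := by
    intro e he
    rw [hP2, List.mem_toFinset] at he
    rw [hP, List.mem_toFinset]
    exact SimpleGraph.Walk.edges_dropUntil_subset_edges w hus he
  have hP12 : Disjoint P1 P2 := by
    rw [Finset.disjoint_left]
    intro e he1 he2
    rw [hP1, List.mem_toFinset] at he1
    rw [hP2, List.mem_toFinset] at he2
    have hnd : w.edges.Nodup := hw.isTrail.edges_nodup
    have hsp : w.edges = (w.takeUntil u hus).edges ++ (w.dropUntil u hus).edges := by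
      conv_lhs => rw [← SimpleGraph.Walk.take_spec w hus]
      rw [SimpleGraph.Walk.edges_append]
    rw [hsp] at hnd
    exact (List.nodup_append.1 hnd).2.2 e he1 e he2 rfl
  have hxu : Cn P1 x u := Cn_of_walk_bk _ (fun e he => List.mem_toFinset.2 he)
  -- points of the second part of the path are joined to `u` there
  have hdrop : ∀ b, b ∈ (w.dropUntil u hus).support → Cn P2 u b := by
    intro b hb
    refine Cn_of_walk_bk ((w.dropUntil u hus).takeUntil b hb) (fun e he => ?_)
    rw [hP2, List.mem_toFinset]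
    exact SimpleGraph.Walk.edges_takeUntil_subset_edges _ hb he
  -- the other attaching points are on the second part
  have hlate : ∀ i ∈ I.erase i0, a i ∈ (w.dropUntil u hus).support := by
    intro i hi
    have hiI : i ∈ I := mem_of_mem_erase hi
    by_contra hcon
    have hsup : a i ∈ w.support := ha i hiI
    have hmem : a i ∈ (w.takeUntil u hus).support := by
      have h1 : a i ∈ ((w.takeUntil u hus).append (w.dropUntil u hus)).support := by
        rw [SimpleGraph.Walk.take_spec]
        exact hsup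
      rcases (SimpleGraph.Walk.mem_support_append_iff _ _).1 h1 with h | h
      · exact h
      · exact absurd h hcon
    have hneq : a i ≠ u := by
      intro h
      refine hcon ?_
      rw [h]
      exact SimpleGraph.Walk.start_mem_support _
    have hlt := SimpleGraph.Walk.length_takeUntil_lt_length hmem hneq
    rw [SimpleGraph.Walk.takeUntil_takeUntil] at hlt
    have h2 := hmin i hi
    rw [dif_pos hus, dif_pos hsup] at h2
    omega
  -- the edges of the component of `u` off the path
  set E2 : Finset (Sym2 V) := (S \ P).filter (fun e => ∀ v ∈ e, Cn (S \ P) u v) with hE2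
  have hE2S : E2 ⊆ S \ P := filter_subset _ _
  set J : Finset ι := (I.erase i0).filter (fun i => Cn (S \ P) u (z i)) with hJ
  have hJI : J ⊆ I := (filter_subset _ _).trans (erase_subset _ _)
  have hi1J : i1 ∈ J := by
    rw [hJ, mem_filter]
    exact ⟨hi1, hac i1 hi1I⟩
  have hi0J : i0 ∈ I \ J := by
    rw [mem_sdiff]
    exact ⟨hi0, fun h => notMem_erase i0 I ((mem_filter.1 h).1)⟩
  refine ⟨u, hxu.mono (hP1P.trans hPS), J, hJI, ⟨i1, hi1J⟩, ⟨i0, hi0J⟩, P1, P2 ∪ (S \ P),
    hP1P.trans hPS, union_subset (hP2P.trans hPS) sdiff_subset, ?_, hxu,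
    E2, P2 ∪ ((S \ P) \ E2), ?_, ?_, ?_, ?_, ?_⟩
  · rw [disjoint_union_right]
    exact ⟨hP12, disjoint_of_subset_left hP1P disjoint_sdiff⟩
  · exact hE2S.trans subset_union_right
  · exact union_subset_union (Subset.refl _) sdiff_subset
  · rw [disjoint_union_right]
    refine ⟨?_, disjoint_sdiff⟩
    exact (disjoint_of_subset_left hP2P (disjoint_of_subset_right hE2S disjoint_sdiff)).symm
  · intro i hi
    have h1 : Cn (S \ P) u (z i) := (mem_filter.1 hi).2
    have : z i ∈ {v | Cn (S \ P) u v ∧ Cn E2 u v} := by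
      refine Vale.Agent.P151.Cn_closed (S := S \ P) ?_
        ⟨Vale.Agent.P151.Cn.refl _ _, Vale.Agent.P151.Cn.refl _ _⟩ h1
      rintro c ⟨hc1, hc2⟩ d hcd
      have hd : Cn (S \ P) u d := hc1.trans (Vale.Agent.P151.Cn_of_mem hcd)
      refine ⟨hd, hc2.trans (Vale.Agent.P151.Cn_of_mem ?_)⟩
      rw [hE2, mem_filter]
      refine ⟨hcd, fun v hv => ?_⟩
      rcases Sym2.mem_iff.1 hv with rfl | rfl
      · exact hc1
      · exact hd
    exact this.2
  · intro i hi
    obtain ⟨hiI, hiJ⟩ := mem_sdiff.1 hi
    by_cases h0 : i = i0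
    · rw [h0]
      exact (hdrop _ (SimpleGraph.Walk.end_mem_support _)).mono subset_union_left
    · have hie : i ∈ I.erase i0 := mem_erase.2 ⟨h0, hiI⟩
      have hnu : ¬ Cn (S \ P) u (z i) := fun h => hiJ (mem_filter.2 ⟨hie, h⟩)
      have h1 : Cn P2 u (a i) := hdrop _ (hlate i hie)
      have h2 : Cn (S \ P) (a i) (z i) := hac i hiI
      have hna : ¬ Cn (S \ P) u (a i) := fun h => hnu (h.trans h2)
      have : z i ∈ {v | Cn (S \ P) (a i) v ∧ Cn ((S \ P) \ E2) (a i) v} := by
        refine Vale.Agent.P151.Cn_closed (S := S \ P) ?_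
          ⟨Vale.Agent.P151.Cn.refl _ _, Vale.Agent.P151.Cn.refl _ _⟩ h2
        rintro c ⟨hc1, hc2⟩ d hcd
        have hd : Cn (S \ P) (a i) d := hc1.trans (Vale.Agent.P151.Cn_of_mem hcd)
        refine ⟨hd, hc2.trans (Vale.Agent.P151.Cn_of_mem ?_)⟩
        rw [mem_sdiff]
        refine ⟨hcd, fun h => ?_⟩
        rw [hE2, mem_filter] at h
        exact hna ((h.2 c (Sym2.mem_mk_left c d)).trans hc1.symm)
      exact (h1.mono subset_union_left).trans (this.2.mono subset_union_right)

end Vale.Agent.P165.H633
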